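import Vale.Agent.P163.MathlibUsed

open MeasureTheory Filter Topology
open scoped RealInnerProductSpace

namespace Vale.Agent.P163.Model

/-- The Euclidean space `R^n`. -/
abbrev E (n : ℕ) := EuclideanSpace ℝ (Fin n)

/-- The unit sphere `S^{n-1}` of `R^n`. -/
abbrev Spin (n : ℕ) := Metric.sphere (0 : E n) 1

/-- The normalized uniform (surface) measure on the unit sphere. -/
noncomputable def unif (n : ℕ) : Measure (Spin n) :=
  ProbabilityTheory.cond (volume : Measure (E n)).toSphere Set.univ

/-- The Gibbs probability measure on spin configurations on the finite set of sites `V`, with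
density proportional to `exp (1/2 * sum over ordered pairs of J x y * (σ x . σ y))` with respect
to the product of the uniform measures. -/
noncomputable def gibbs {V : Type} [Fintype V] (n : ℕ) (J : V → V → ℝ) : Measure (V → Spin n) :=
  (Measure.pi fun _ => unif n).tilted fun σ => (1 / 2) * ∑ x, ∑ y, J x y * ⟪(σ x : E n), (σ y : E n)⟫

/-- Nearest neighbours of the square lattice. -/
def Adj (x y : ℤ × ℤ) : Prop := |x.1 - y.1| + |x.2 - y.2| = 1

/-- Nearest neighbours in the box `[a, b]` with periodic boundary conditions: `y`, translated by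
a vector whose coordinates are multiples of the side lengths, is a neighbour of `x`. -/
def PerAdj (a b x y : ℤ × ℤ) : Prop :=
  ∃ k l : ℤ, Adj x (y.1 + k * (b.1 - a.1 + 1), y.2 + l * (b.2 - a.2 + 1))

open Classical in
/-- The O(n) model at inverse temperature `β` in the box `[a, b]` of the square lattice, with
periodic (`p = true`) or free (`p = false`) boundary conditions. -/
noncomputable def boxState (n : ℕ) (β : ℝ) (p : Bool) (a b : ℤ × ℤ) :
    Measure (Finset.Icc a b → Spin n) :=
  gibbs n fun x y => if (p = true ∧ PerAdj a b x y) ∨ (p = false ∧ Adj x y) then β else 0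

open Classical in
/-- Infinite-volume states at inverse temperature `β`: local weak limits of the finite-volume
measures (free or periodic) along boxes that exhaust the square lattice. -/
def IsInfiniteVolumeState (n : ℕ) (β : ℝ) (μ : Measure (ℤ × ℤ → Spin n)) : Prop :=
  ∃ (p : ℕ → Bool) (a b : ℕ → ℤ × ℤ),
    (∀ x : ℤ × ℤ, ∀ᶠ k in atTop, x ∈ Finset.Icc (a k) (b k)) ∧
    ∀ (A : Finset (ℤ × ℤ)) (f : (A → Spin n) → ℝ), Continuous f →
      Tendsto (fun k => if h : A ⊆ Finset.Icc (a k) (b k) then
          ∫ σ, f (fun x => σ ⟨x.1, h x.2⟩) ∂(boxState n β (p k) (a k) (b k)) else 0)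
        atTop (𝓝 (∫ σ, f (fun x => σ x.1) ∂μ))

/-- Euclidean distance in the square lattice. -/
noncomputable def dist2 (x y : ℤ × ℤ) : ℝ :=
  Real.sqrt (((x.1 - y.1 : ℤ) : ℝ) ^ 2 + ((x.2 - y.2 : ℤ) : ℝ) ^ 2)

end Vale.Agent.P163.Model
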