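import Mathlib.Algebra.Order.Archimedean.Real.Hom
import Mathlib.Analysis.Calculus.ParametricIntegral
import Mathlib.Analysis.Complex.ExponentialBounds
import Mathlib.Analysis.Real.Pi.Bounds
import Mathlib.Computability.Reduce
import Mathlib.Data.Int.Star
import Mathlib.MeasureTheory.Constructions.HaarToSphere
import Mathlib.MeasureTheory.Measure.Haar.InnerProductSpace
import Mathlib.MeasureTheory.Measure.RegularityCompacts
import Mathlib.MeasureTheory.Measure.Tilted
import Mathlib.Probability.ProductMeasure
import Mathlib.RingTheory.Flat.FaithfullyFlat.Basic
import Mathlib.RingTheory.Flat.TorsionFree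
import Mathlib.RingTheory.SimpleRing.Principal
import Mathlib.Tactic
import Mathlib.Topology.UniformSpace.Uniformizable

/-! The part of Mathlib that the development of this folder uses. -/
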